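import Vale.Agent.P273.H214.OneOf

/-!
# P273, row BULK-F4: uniform zones of the one mark gauge `oneOf` (roots and infinity)
-/

namespace Vale.Agent.P273.H214

open scoped ContDiff Topology
open Set Filter
open H681 (C6 XX swL)
open H95 (rts pol act IsCl)
open H973 (E1 On1 Near1 One)

noncomputable section

theorem psq_re_nonneg (z : ℂ) : 0 ≤ (psq z).re := by
  rw [psq, Complex.exp_re]
  refine mul_nonneg (Real.exp_pos _).le (Real.cos_nonneg_of_mem_Icc ?_)
  have h1 := Complex.neg_pi_lt_log_im z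
  have h2 := Complex.log_im_le_pi z
  have h3 : (Complex.log z / 2).im = (Complex.log z).im / 2 := by
    simp
  rw [h3]
  constructor <;> linarith

theorem norm_psq_sub_one_le {z : ℂ} (hz : z ≠ 0) : ‖psq z - 1‖ ≤ ‖z - 1‖ := by
  have h1 : (psq z - 1) * (psq z + 1) = z - 1 := by
    have := psq_sq hz
    linear_combination this
  have h2 : 1 ≤ ‖psq z + 1‖ := by
    have h3 := Complex.re_le_norm (psq z + 1)
    have h4 := psq_re_nonneg z
    simp only [Complex.add_re, Complex.one_re] at h3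
    linarith
  rw [← h1, norm_mul]
  exact le_mul_of_one_le_right (norm_nonneg _) h2

/-- the canonical sheet at infinity has positive real part -/
theorem re_Pinf_pos {b : Bs} {w : ℂ} (h : 2 * H604.Rr b * ‖w‖ < 1) : 0 < (H604.Pinf b w).re := by
  have h1 : ∀ i, ‖w * b i‖ ≤ 1 / 16 := by
    intro i
    have h2 := H604.norm_le_Rr b i
    rw [norm_mul]
    nlinarith [norm_nonneg w]
  have h2 : ∀ i, ‖psq (1 - w * b i) - 1‖ ≤ 1 / 16 := by
    intro i
    have hz : (1 : ℂ) - w * b i ≠ 0 := by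
      intro h0
      have h3 : w * b i = 1 := by linear_combination -h0
      have h4 := h1 i
      rw [h3, norm_one] at h4
      norm_num at h4
    refine (norm_psq_sub_one_le hz).trans ?_
    have h3 : (1 : ℂ) - w * b i - 1 = -(w * b i) := by ring
    rw [h3, norm_neg]
    exact h1 i
  have h3 : ‖H604.Pinf b w - 1‖ < 1 := by
    have h4 : H604.Pinf b w = ∏ i, (1 + (psq (1 - w * b i) - 1)) := by
      unfold H604.Pinf
      exact Finset.prod_congr rfl fun i _ => by ring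
    rw [h4]
    refine (Finset.norm_prod_one_add_sub_one_le _ _).trans_lt ?_
    have h5 : ∑ i : Fin 6, ‖psq (1 - w * b i) - 1‖ ≤ 3 / 8 := by
      refine (Finset.sum_le_sum fun i _ => h2 i).trans ?_
      simp
      norm_num
    have h6 : Real.exp (∑ i : Fin 6, ‖psq (1 - w * b i) - 1‖) ≤ Real.exp (3 / 8) :=
      Real.exp_le_exp.2 h5
    have h7 := Real.add_one_le_exp (-(3 / 8 : ℝ))
    have h8 : Real.exp (3 / 8) * Real.exp (-(3 / 8)) = 1 := by
      rw [← Real.exp_add]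
      simp
    have h9 := Real.exp_pos (3 / 8)
    nlinarith
  have h4 := Complex.abs_re_le_norm (H604.Pinf b w - 1)
  rw [Complex.sub_re, Complex.one_re] at h4
  have h5 := (abs_lt.1 (h4.trans_lt h3)).1
  linarith

theorem mem_Far {b : Bs} {w : ℂ} (h : 2 * H604.Rr b * ‖w‖ < 1) (hw : w ≠ 0) :
    (b, w⁻¹) ∈ H604.Far := by
  have h1 : 0 < ‖w‖ := norm_pos_iff.2 hw
  have h2 := H604.Rr_pos b
  change 2 * H604.Rr b ^ 2 < ‖w⁻¹‖ ^ 2
  rw [norm_inv]
  have h3 : 2 * H604.Rr b < ‖w‖⁻¹ := by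
    rw [lt_inv_comm₀ (by positivity) h1, ← one_div, lt_div_iff₀ (by positivity)]
    linarith
  have h4 : (2 * H604.Rr b) ^ 2 < (‖w‖⁻¹) ^ 2 := pow_lt_pow_left₀ h3 (by positivity) two_ne_zero
  nlinarith [sq_nonneg (H604.Rr b)]

/-- **the root discs**: the gauge of one mark is zero for `64 |x - b j|² < hh b j` -/
theorem oneOf_root (Φ : FlatFam) (ξ : Fin 6 → ℝ) (b : C6) (x y : ℂ) (j : Fin 6) (hξ : IsCl ξ)
    (hb : b ∈ XX) (hy : On1 false (b, x) y) (h : 64 * ‖x - b j‖ ^ 2 < hh b j) :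
    (oneOf Φ).η ξ false (b, x) y = 0 := by
  have hv1 : y ^ 2 = ff (b, x) := by rw [hy.1, pol_false]
  have hx : x ≠ b j := by
    have : ff (b, x) ≠ 0 := by rw [← hv1]; exact pow_ne_zero 2 hy.2
    exact ff_ne_zero_iff.1 this j
  change etaC (Φ.η ξ) (Φ.A ξ) false (b, x) y = 0
  rw [etaC_false]
  exact etaP_eq_zero (Φ.flat ξ hξ) hb h hx hv1

/-- **the zone of infinity**: `2 (Rr b) |w| < 1` -/
theorem oneOf_far (Φ : FlatFam) (ξ : Fin 6 → ℝ) (b : C6) (w v : ℂ) (hξ : IsCl ξ)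
    (hb : b ∈ XX) (hv : On1 true (b, w) v) (h : 2 * H604.Rr b * ‖w‖ < 1) :
    (oneOf Φ).η ξ true (b, w) v = (if 0 < v.re then (1 : ℝ) else -1) •
      (H604.Cinf (Φ.η ξ) (Φ.A ξ) b).comp (ContinuousLinearMap.fst ℝ C6 ℂ) :=
  etaC_far (e := (b, w)) (Φ.flat ξ hξ) hb (re_Pinf_pos h) (mem_Far h) hv

/-- the same in the chart `x` -/
theorem oneOf_far' (Φ : FlatFam) (ξ : Fin 6 → ℝ) (b : C6) (x y : ℂ) (hξ : IsCl ξ)
    (hb : b ∈ XX) (hy : On1 false (b, x) y) (h : 2 * H604.Rr b < ‖x‖) :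
    (oneOf Φ).η ξ false (b, x) y = (y / (x ^ 3 * H604.Pinf b x⁻¹)).re •
      (H604.Cinf (Φ.η ξ) (Φ.A ξ) b).comp (ContinuousLinearMap.fst ℝ C6 ℂ) := by
  have hv1 : y ^ 2 = ff (b, x) := by rw [hy.1, pol_false]
  have h2 := H604.Rr_pos b
  have hf : (b, x) ∈ H604.Far := by
    change 2 * H604.Rr b ^ 2 < ‖x‖ ^ 2
    have h4 : (2 * H604.Rr b) ^ 2 < ‖x‖ ^ 2 := pow_lt_pow_left₀ h (by positivity) two_ne_zero
    nlinarith [sq_nonneg (H604.Rr b)]
  change etaC (Φ.η ξ) (Φ.A ξ) false (b, x) y = _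
  rw [etaC_false]
  exact H604.etaP_inf' (Φ.flat ξ hξ) hb hf hv1

/-- the one mark gauge in the chart `x` is the cut-off form -/
theorem oneOf_false (Φ : FlatFam) (ξ : Fin 6 → ℝ) (e : E1) (v : ℂ) :
    (oneOf Φ).η ξ false e v = etaP (Φ.η ξ) (Φ.A ξ) e.1 e.2 v := etaC_false e v

end

end Vale.Agent.P273.H214
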