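import Vale.Agent.P273.H214.Root
import Vale.Agent.P273.H604.GInf
import Vale.Agent.P273.H973.One
import Vale.Agent.P273.H887.Pol

/-!
# P273, row BULK-F4: from the flat forms of all classes to the one mark gauge `One`
-/

namespace Vale.Agent.P273.H214

open scoped ContDiff Topology
open Set Filter
open H681 (C6 XX swL)
open H95 (rts pol act IsCl)
open H973 (E1 On1 Near1 One)

noncomputable section

/-- **The flat gauge for all classes**, over the space `XX` of configurations. -/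
structure FlatFam where
  η : (Fin 6 → ℝ) → Bs → ℂ → ℂ → (Bs × ℂ →L[ℝ] ℝ)
  A : (Fin 6 → ℝ) → Bs → (ℂ × ℂ →L[ℝ] ℝ)
  flat : ∀ ξ, IsCl ξ → FlatOn XX (η ξ) (A ξ)
  addA : ∀ ξ ζ, IsCl ξ → IsCl ζ → ∀ b ∈ XX, A (ξ + ζ) b = A ξ b + A ζ b
  smulA : ∀ (c : ℝ) ξ, IsCl ξ → ∀ b ∈ XX, A (c • ξ) b = c • A ξ b
  constA : ∀ b ∈ XX, A (fun _ => 1) b = 0
  lawA : ∀ ξ (i : Fin 5), IsCl ξ → ∀ b ∈ XX, (b i.succ).re < (b i.castSucc).re →
    A ξ b = A (act i ξ) (swL i b)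
  add : ∀ ξ ζ, IsCl ξ → IsCl ζ → ∀ b ∈ XX, ∀ x y, y ^ 2 = ff (b, x) → y ≠ 0 →
    η (ξ + ζ) b x y = η ξ b x y + η ζ b x y
  smul : ∀ (c : ℝ) ξ, IsCl ξ → ∀ b ∈ XX, ∀ x y, y ^ 2 = ff (b, x) → y ≠ 0 →
    η (c • ξ) b x y = c • η ξ b x y
  const : ∀ b ∈ XX, ∀ x y, y ^ 2 = ff (b, x) → y ≠ 0 → η (fun _ => 1) b x y = 0
  law : ∀ ξ (i : Fin 5), IsCl ξ → ∀ b ∈ XX, (b i.succ).re < (b i.castSucc).re →
    ∀ x y, y ^ 2 = ff (b, x) → y ≠ 0 →
    η ξ b x y = (η (act i ξ) (swL i b) x y).comp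
      ((swL i).prodMap (ContinuousLinearMap.id ℝ ℂ))

/-! ### linearity of the cut-off part -/

section lin
variable {H : Type*} [NormedAddCommGroup H] [NormedSpace ℝ H]

theorem Ecut_lin {A1 A2 A3 : Bs → (ℂ × ℂ →L[ℝ] H)} {b : Bs} {c1 c2 : ℝ}
    (h : A3 b = c1 • A1 b + c2 • A2 b) (x y : ℂ) :
    Ecut A3 (b, x) y = c1 • Ecut A1 (b, x) y + c2 • Ecut A2 (b, x) y := by
  unfold Ecut
  simp only [h, add_apply, smul_apply, smul_add,
    Finset.sum_add_distrib, Finset.smul_sum]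
  have h1 : ∀ (A : Bs → (ℂ × ℂ →L[ℝ] H)) (c : ℝ),
      ∑ j, chiW b j x • c • A b (EWv b j x y) = ∑ j, c • chiW b j x • A b (EWv b j x y) :=
    fun A c => Finset.sum_congr rfl fun j _ => smul_comm _ _ _
  rw [h1, h1, smul_comm (H604.chiI b x) c1, smul_comm (H604.chiI b x) c2]
  abel

theorem dcut_lin {A1 A2 A3 : Bs → (ℂ × ℂ →L[ℝ] H)} {b : Bs} {c1 c2 : ℝ}
    (h : ∀ᶠ b' in 𝓝 b, A3 b' = c1 • A1 b' + c2 • A2 b') (hb : b ∈ Cf)
    (h1 : ContDiffAt ℝ ∞ A1 b) (h2 : ContDiffAt ℝ ∞ A2 b) {x y : ℂ} (hx : ff (b, x) ≠ 0)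
    (hy : y ^ 2 = ff (b, x)) : dcut A3 b x y = c1 • dcut A1 b x y + c2 • dcut A2 b x y := by
  have hbr : IsBr (Ybr (b, x) y) (b, x) := isBr_Ybr hx hy
  have e1 : DifferentiableAt ℝ (fun p => Ecut A1 p (Ybr (b, x) y p)) (b, x) :=
    (contDiffAt_Ecut (p := (b, x)) hb h1 hbr).differentiableAt (by simp)
  have e2 : DifferentiableAt ℝ (fun p => Ecut A2 p (Ybr (b, x) y p)) (b, x) :=
    (contDiffAt_Ecut (p := (b, x)) hb h2 hbr).differentiableAt (by simp)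
  have e3 : HasFDerivAt (fun p => c1 • Ecut A1 p (Ybr (b, x) y p) +
      c2 • Ecut A2 p (Ybr (b, x) y p)) (c1 • dcut A1 b x y + c2 • dcut A2 b x y) (b, x) :=
    (e1.hasFDerivAt.const_smul c1).add (e2.hasFDerivAt.const_smul c2)
  refine (e3.congr_of_eventuallyEq ?_).fderiv
  have h3 : ∀ᶠ q : Bs × ℂ in 𝓝 (b, x), A3 q.1 = c1 • A1 q.1 + c2 • A2 q.1 :=
    (continuousAt_fst (p := (b, x)) :
      Tendsto (Prod.fst : Bs × ℂ → Bs) (𝓝 (b, x)) (𝓝 b)).eventually h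
  filter_upwards [h3] with q hq
  exact Ecut_lin hq q.2 _

end lin

variable (Φ : FlatFam)

theorem sub_XX {b : Bs} (hb : b ∈ XX) : b ∈ Cf := Vale.P273.H887.injective_of_mem_XX hb

theorem FlatFam.addP {ξ ζ : Fin 6 → ℝ} (h1 : IsCl ξ) (h2 : IsCl ζ) {b : Bs} (hb : b ∈ XX)
    {x y : ℂ} (hy : y ^ 2 = ff (b, x)) (hy0 : y ≠ 0) :
    etaP (Φ.η (ξ + ζ)) (Φ.A (ξ + ζ)) b x y =
      etaP (Φ.η ξ) (Φ.A ξ) b x y + etaP (Φ.η ζ) (Φ.A ζ) b x y := by
  have hx : ff (b, x) ≠ 0 := by rw [← hy]; exact pow_ne_zero 2 hy0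
  have h3 : dcut (Φ.A (ξ + ζ)) b x y = (1 : ℝ) • dcut (Φ.A ξ) b x y + (1 : ℝ) • dcut (Φ.A ζ) b x y :=
    dcut_lin (by
      filter_upwards [(Φ.flat ξ h1).isOpen.mem_nhds hb] with c hc
      rw [Φ.addA ξ ζ h1 h2 c hc, one_smul, one_smul]) (sub_XX hb)
      ((Φ.flat ξ h1).smoothA b hb) ((Φ.flat ζ h2).smoothA b hb) hx hy
  unfold etaP
  rw [h3, Φ.add ξ ζ h1 h2 b hb x y hy hy0, one_smul, one_smul]
  abel

theorem FlatFam.smulP (c : ℝ) {ξ : Fin 6 → ℝ} (h1 : IsCl ξ) {b : Bs} (hb : b ∈ XX)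
    {x y : ℂ} (hy : y ^ 2 = ff (b, x)) (hy0 : y ≠ 0) :
    etaP (Φ.η (c • ξ)) (Φ.A (c • ξ)) b x y = c • etaP (Φ.η ξ) (Φ.A ξ) b x y := by
  have hx : ff (b, x) ≠ 0 := by rw [← hy]; exact pow_ne_zero 2 hy0
  have h3 : dcut (Φ.A (c • ξ)) b x y = c • dcut (Φ.A ξ) b x y + (0 : ℝ) • dcut (Φ.A ξ) b x y :=
    dcut_lin (by
      filter_upwards [(Φ.flat ξ h1).isOpen.mem_nhds hb] with b' hb'
      rw [Φ.smulA c ξ h1 b' hb', zero_smul, add_zero]) (sub_XX hb)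
      ((Φ.flat ξ h1).smoothA b hb) ((Φ.flat ξ h1).smoothA b hb) hx hy
  unfold etaP
  rw [h3, Φ.smul c ξ h1 b hb x y hy hy0, zero_smul, add_zero, smul_sub]

theorem isCl_one : IsCl fun _ => 1 := by
  unfold IsCl
  norm_num [Fin.sum_univ_succ]

theorem FlatFam.constP {b : Bs} (hb : b ∈ XX)
    {x y : ℂ} (hy : y ^ 2 = ff (b, x)) (hy0 : y ≠ 0) :
    etaP (Φ.η fun _ => 1) (Φ.A fun _ => 1) b x y = 0 := by
  have hx : ff (b, x) ≠ 0 := by rw [← hy]; exact pow_ne_zero 2 hy0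
  have h3 : dcut (Φ.A fun _ => 1) b x y =
      (0 : ℝ) • dcut (Φ.A fun _ => 1) b x y + (0 : ℝ) • dcut (Φ.A fun _ => 1) b x y :=
    dcut_lin (by
      filter_upwards [(Φ.flat _ isCl_one).isOpen.mem_nhds hb] with b' hb'
      rw [Φ.constA b' hb', smul_zero, add_zero]) (sub_XX hb)
      ((Φ.flat _ isCl_one).smoothA b hb) ((Φ.flat _ isCl_one).smoothA b hb) hx hy
  unfold etaP
  rw [h3, Φ.const b hb x y hy hy0, zero_smul, add_zero, sub_zero]

/-! ### the law -/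

theorem swL_eq_comp (i : Fin 5) (b : C6) : swL i b = b ∘ H681.sw i := by
  funext k
  simp [swL]

theorem relab_sw (i : Fin 5) :
    relab (H681.sw i) = (swL i).prodMap (ContinuousLinearMap.id ℝ ℂ) := by
  refine ContinuousLinearMap.ext fun p => ?_
  rw [relab_apply, ← swL_eq_comp]
  rfl

theorem sw_mem {i : Fin 5} {b : C6} (hb : b ∈ XX) (h : (b i.succ).re < (b i.castSucc).re) :
    swL i b ∈ XX := by
  rw [swL_eq_comp]
  intro k l hkl hre
  simp only [Function.comp] at hre ⊢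
  have hi : (i.castSucc : Fin 6) < i.succ := Fin.castSucc_lt_succ
  by_cases h1 : H681.sw i k < H681.sw i l
  · exact hb _ _ h1 hre
  · exfalso
    have hne : H681.sw i k ≠ H681.sw i l := fun h' => hkl.ne ((H681.sw i).injective h')
    have h2 : H681.sw i l < H681.sw i k := lt_of_le_of_ne (not_lt.1 h1) hne.symm
    -- only the pair `i, i + 1` changes its order
    have h3 : k = i.castSucc ∧ l = i.succ := by
      revert h2 hkl
      clear hne h1 hre h hb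
      unfold H681.sw
      revert i k l
      decide
    rw [h3.1, h3.2] at hre
    simp only [H681.sw, Equiv.swap_apply_left, Equiv.swap_apply_right] at hre
    exact absurd hre h.ne

theorem FlatFam.lawP {ξ : Fin 6 → ℝ} (i : Fin 5) (h1 : IsCl ξ) (h2 : IsCl (act i ξ)) {b : Bs}
    (hb : b ∈ XX) (h : (b i.succ).re < (b i.castSucc).re) {x y : ℂ} (hy : y ^ 2 = ff (b, x))
    (hy0 : y ≠ 0) :
    etaP (Φ.η ξ) (Φ.A ξ) b x y = (etaP (Φ.η (act i ξ)) (Φ.A (act i ξ)) (swL i b) x y).comp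
      ((swL i).prodMap (ContinuousLinearMap.id ℝ ℂ)) := by
  have hx : ff (b, x) ≠ 0 := by rw [← hy]; exact pow_ne_zero 2 hy0
  have hm : swL i b ∈ XX := sw_mem hb h
  rw [← relab_sw, swL_eq_comp]
  rw [swL_eq_comp] at hm
  refine etaP_perm ?_ (sub_XX hb) ((Φ.flat _ h2).smoothA _ hm) hx hy ?_
  · have h3 : ∀ᶠ c : Bs in 𝓝 b, (c i.succ).re < (c i.castSucc).re :=
      (isOpen_lt (by fun_prop) (by fun_prop)).mem_nhds h
    filter_upwards [(Φ.flat _ h1).isOpen.mem_nhds hb, h3] with c hc h4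
    rw [Φ.lawA ξ i h1 c hc h4, swL_eq_comp]
  · rw [relab_sw, ← swL_eq_comp]
    exact Φ.law ξ i h1 b hb h x y hy hy0

theorem isCl_act {ξ : Fin 6 → ℝ} (h : IsCl ξ) (i : Fin 5) : IsCl (act i ξ) := by
  unfold IsCl at *
  refine Eq.trans ?_ h
  rw [Fin.sum_univ_six, Fin.sum_univ_six]
  fin_cases i <;> simp [act, Fin.ext_iff] <;> ring

/-! ### near every point one smooth closed form -/

theorem pol_false (b : Bs) (x : ℂ) : pol false (rts b) x = ff (b, x) := by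
  rw [Vale.P273.H887.pol_rts]
  rfl

theorem pol_true (b : Bs) (w : ℂ) : pol true (rts b) w = ∏ i, (1 - w * b i) := by
  rw [Vale.P273.H887.pol_rts]
  refine Finset.prod_congr rfl fun i _ => ?_
  simp [Vale.P273.H887.fac, mul_comm]

theorem near1_of {s : Bool} {η : E1 → ℂ → (E1 →L[ℝ] ℝ)} {e : E1} {v : ℂ}
    {g : E1 → (E1 →L[ℝ] ℝ)}
    (h1 : ∀ᶠ p in 𝓝 e, ContDiffAt ℝ ∞ g p ∧ ∀ u w, fderiv ℝ g p u w = fderiv ℝ g p w u)
    (h2 : ∀ᶠ q : E1 × ℂ in 𝓝 (e, v), q.2 ^ 2 = pol s (rts q.1.1) q.1.2 → η q.1 q.2 = g q.1) :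
    Near1 s η e v := by
  obtain ⟨W, hW, hWo, heW⟩ := eventually_nhds_iff.1 h1
  obtain ⟨r, hr, h3⟩ := Metric.eventually_nhds_iff.1 h2
  refine ⟨W ∩ Metric.ball e r, g, r, hWo.inter Metric.isOpen_ball,
    ⟨heW, Metric.mem_ball_self hr⟩, hr, fun p hp => (hW p hp.1).1.contDiffWithinAt,
    fun p hp => (hW p hp.1).2, fun p hp v' hv' hr' => ?_⟩
  refine h3 (y := (p, v')) ?_ hv'
  rw [Prod.dist_eq]
  exact max_lt hp.2 (by rwa [dist_eq_norm])

section near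
variable {O : Set Bs} {η : Bs → ℂ → ℂ → (Bs × ℂ →L[ℝ] ℝ)} {A : Bs → (ℂ × ℂ →L[ℝ] ℝ)}

theorem near_false1 (hF : FlatOn O η A) {e : E1} {y : ℂ} (hb : e.1 ∈ O) (hx : ff e ≠ 0)
    (hy : y ^ 2 = ff e) :
    ∀ᶠ p in 𝓝 e, ContDiffAt ℝ ∞ (fun q : E1 => etaP η A q.1 q.2 (Ybr e y q)) p ∧
      ∀ u w, fderiv ℝ (fun q : E1 => etaP η A q.1 q.2 (Ybr e y q)) p u w =
        fderiv ℝ (fun q : E1 => etaP η A q.1 q.2 (Ybr e y q)) p w u := by
  have hbr : IsBr (Ybr e y) e := isBr_Ybr hx hy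
  have h3 : ∀ᶠ q : Bs × ℂ in 𝓝 e, q.1 ∈ O := continuousAt_fst.eventually_mem (hF.isOpen.mem_nhds hb)
  filter_upwards [hbr.eventually, h3] with p hp hpO
  have h4 := hF.smooth p hpO _ hp
  exact ⟨contDiffAt_etaP (hF.sub hpO) (hF.smoothA _ hpO) hp h4,
    fun u w => fderiv_etaP_symm (hF.sub hpO) (hF.smoothA _ hpO) hp h4 (hF.closed p hpO _ hp u w)⟩

theorem near_false2 {e : E1} {y : ℂ} (hx : ff e ≠ 0) (hy : y ^ 2 = ff e) :
    ∀ᶠ q : E1 × ℂ in 𝓝 (e, y), q.2 ^ 2 = ff q.1 → q.2 = Ybr e y q.1 := by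
  have hbr : IsBr (Ybr e y) e := isBr_Ybr hx hy
  have h1 : ContinuousAt (fun q : E1 × ℂ => q.2 + Ybr e y q.1) (e, y) := by
    refine continuousAt_snd.add ?_
    exact ContinuousAt.comp (g := Ybr e y) (f := Prod.fst) (x := (e, y)) hbr.cont continuousAt_fst
  have h2 : y + Ybr e y e ≠ 0 := by
    rw [Ybr_self hx, ← two_mul]
    refine mul_ne_zero two_ne_zero ?_
    intro h0
    rw [h0] at hy
    exact hx (by rw [← hy]; simp)
  have h3 : ∀ᶠ q : E1 × ℂ in 𝓝 (e, y), Ybr e y q.1 ^ 2 = ff q.1 :=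
    (continuousAt_fst (p := (e, y)) : Tendsto (Prod.fst : E1 × ℂ → E1) (𝓝 (e, y)) (𝓝 e)).eventually
      hbr.sq
  filter_upwards [h1.eventually_ne h2, h3] with q h4 h5 h6
  have h7 : (q.2 - Ybr e y q.1) * (q.2 + Ybr e y q.1) = 0 := by linear_combination h6 - h5
  rcases mul_eq_zero.1 h7 with h8 | h8
  · exact sub_eq_zero.1 h8
  · exact absurd h8 h4

/-- the change of charts -/
def jj (p : E1) : E1 := (p.1, (p.2)⁻¹)

theorem contDiffAt_jj {e : E1} (h : e.2 ≠ 0) : ContDiffAt ℝ ∞ jj e := by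
  have h1 : ContDiffAt ℝ ∞ (fun p : E1 => p.2) e := contDiffAt_snd
  exact contDiffAt_fst.prodMk (h1.inv h)

theorem jj_jj (e : E1) : jj (jj e) = e := by
  unfold jj
  simp

theorem fderiv_jj_jj {e : E1} (h : e.2 ≠ 0) :
    (fderiv ℝ jj (jj e)).comp (fderiv ℝ jj e) = ContinuousLinearMap.id ℝ E1 := by
  have h1 : DifferentiableAt ℝ jj e := (contDiffAt_jj h).differentiableAt (by simp)
  have h2 : DifferentiableAt ℝ jj (jj e) :=
    (contDiffAt_jj (e := jj e) (inv_ne_zero h)).differentiableAt (by simp)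
  have h3 := (h2.hasFDerivAt.comp e h1.hasFDerivAt).fderiv
  have h4 : jj ∘ jj = id := funext jj_jj
  rw [h4, fderiv_id] at h3
  exact h3.symm

theorem fst_fderiv_jj {e : E1} (h : e.2 ≠ 0) :
    (ContinuousLinearMap.fst ℝ C6 ℂ).comp (fderiv ℝ jj e) = ContinuousLinearMap.fst ℝ C6 ℂ := by
  have h1 : DifferentiableAt ℝ jj e := (contDiffAt_jj h).differentiableAt (by simp)
  have h2 := ((ContinuousLinearMap.fst ℝ C6 ℂ).hasFDerivAt.comp e h1.hasFDerivAt).fderiv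
  have h3 : (ContinuousLinearMap.fst ℝ C6 ℂ) ∘ jj = (ContinuousLinearMap.fst ℝ C6 ℂ) := rfl
  rw [h3, ContinuousLinearMap.fderiv] at h2
  exact h2.symm

theorem symm_pull {E F G : Type*} [NormedAddCommGroup E] [NormedSpace ℝ E] [NormedAddCommGroup F]
    [NormedSpace ℝ F] [NormedAddCommGroup G] [NormedSpace ℝ G] {ι : E → F} {g : F → (F →L[ℝ] G)}
    {p : E} (hι : ContDiffAt ℝ ∞ ι p) (hg : DifferentiableAt ℝ g (ι p))
    (hs : ∀ u w, fderiv ℝ g (ι p) u w = fderiv ℝ g (ι p) w u) (u w : E) :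
    fderiv ℝ (fun q => (g (ι q)).comp (fderiv ℝ ι q)) p u w =
      fderiv ℝ (fun q => (g (ι q)).comp (fderiv ℝ ι q)) p w u := by
  have h1 : HasFDerivAt (fun q => g (ι q)) ((fderiv ℝ g (ι p)).comp (fderiv ℝ ι p)) p :=
    hg.hasFDerivAt.comp p (hι.differentiableAt (by simp)).hasFDerivAt
  have h2 : HasFDerivAt (fderiv ℝ ι) (fderiv ℝ (fderiv ℝ ι) p) p :=
    ((hι.fderiv_right (m := ∞) (by simp)).differentiableAt (by simp)).hasFDerivAt
  have h0 : minSmoothness ℝ 2 ≤ (∞ : WithTop ℕ∞) := by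
    simp only [minSmoothness_of_isRCLikeNormedField]
    exact WithTop.coe_le_coe.2 (le_top (a := (2 : ℕ∞)))
  have h4 := hι.isSymmSndFDerivAt h0
  have h3 := h1.clm_comp h2
  rw [h3.fderiv]
  simp only [add_apply, ContinuousLinearMap.comp_apply,
    ContinuousLinearMap.compL_apply, ContinuousLinearMap.flip_apply]
  rw [hs, h4 u w]

/-- the form in the two charts -/
def etaC (η : Bs → ℂ → ℂ → (Bs × ℂ →L[ℝ] ℝ)) (A : Bs → (ℂ × ℂ →L[ℝ] ℝ)) (s : Bool) (e : E1)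
    (v : ℂ) : E1 →L[ℝ] ℝ :=
  if s then
    if e.2 = 0 then (if 0 < v.re then (1 : ℝ) else -1) •
      (H604.Cinf η A e.1).comp (ContinuousLinearMap.fst ℝ C6 ℂ)
    else (etaP η A e.1 e.2⁻¹ (v * (e.2⁻¹) ^ 3)).comp (fderiv ℝ jj e)
  else etaP η A e.1 e.2 v

theorem etaC_false (e : E1) (v : ℂ) : etaC η A false e v = etaP η A e.1 e.2 v := by
  simp [etaC]

theorem etaC_zero {e : E1} (h : e.2 = 0) (v : ℂ) : etaC η A true e v =
    (if 0 < v.re then (1 : ℝ) else -1) •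
      (H604.Cinf η A e.1).comp (ContinuousLinearMap.fst ℝ C6 ℂ) := by
  simp [etaC, h]

theorem etaC_true {e : E1} (h : e.2 ≠ 0) (v : ℂ) : etaC η A true e v =
    (etaP η A e.1 e.2⁻¹ (v * (e.2⁻¹) ^ 3)).comp (fderiv ℝ jj e) := by
  simp [etaC, h]

theorem curve_flip {e : E1} (h : e.2 ≠ 0) {v : ℂ} (hv : v ^ 2 = pol true (rts e.1) e.2) :
    (v * (e.2⁻¹) ^ 3) ^ 2 = ff (jj e) := by
  have h1 := Vale.P273.H887.pol_flip (s := true) (s' := false) (by simp) (rts e.1) h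
  rw [pol_false] at h1
  change ff (jj e) = _ at h1
  rw [h1, ← hv]
  ring

theorem near_etaC_false (hF : FlatOn O η A) {e : E1} {v : ℂ} (hb : e.1 ∈ O)
    (hv : On1 false e v) : Near1 false (etaC η A false) e v := by
  have hv1 : v ^ 2 = ff e := by rw [hv.1, pol_false]
  have hx : ff e ≠ 0 := by rw [← hv1]; exact pow_ne_zero 2 hv.2
  refine near1_of (near_false1 hF hb hx hv1) ?_
  filter_upwards [near_false2 hx hv1] with q hq h1
  rw [etaC_false, hq (by rw [h1, pol_false])]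

theorem near_etaC_true (hF : FlatOn O η A) {e : E1} {v : ℂ} (hb : e.1 ∈ O) (hw : e.2 ≠ 0)
    (hv : On1 true e v) : Near1 true (etaC η A true) e v := by
  set y := v * (e.2⁻¹) ^ 3 with hydef
  have hy : y ^ 2 = ff (jj e) := curve_flip hw hv.1
  have hy0 : y ≠ 0 := mul_ne_zero hv.2 (pow_ne_zero _ (inv_ne_zero hw))
  have hx : ff (jj e) ≠ 0 := by rw [← hy]; exact pow_ne_zero 2 hy0
  set g : E1 → (E1 →L[ℝ] ℝ) := fun q => etaP η A q.1 q.2 (Ybr (jj e) y q) with hg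
  have h1 := near_false1 hF (e := jj e) hb hx hy
  have hc : ContinuousAt jj e := (contDiffAt_jj hw).continuousAt
  have hne : ∀ᶠ p : E1 in 𝓝 e, p.2 ≠ 0 := continuousAt_snd.eventually_ne hw
  refine near1_of (g := fun p => (g (jj p)).comp (fderiv ℝ jj p)) ?_ ?_
  · filter_upwards [hc.eventually h1, hne] with p hp hp0
    have h2 := contDiffAt_jj hp0
    have h3 : ContDiffAt ℝ ∞ (fun q => g (jj q)) p := ContDiffAt.comp (g := g) p hp.1 h2
    exact ⟨h3.clm_comp (h2.fderiv_right (m := ∞) (by simp)),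
      symm_pull h2 (hp.1.differentiableAt (by simp)) hp.2⟩
  · have h4 : ContinuousAt (fun q : E1 × ℂ => (jj q.1, q.2 * (q.1.2⁻¹) ^ 3)) (e, v) := by
      have h5 : ContinuousAt (fun q : E1 × ℂ => jj q.1) (e, v) :=
        ContinuousAt.comp (g := jj) (f := Prod.fst) (x := (e, v)) hc continuousAt_fst
      have h6 : ContinuousAt (fun q : E1 × ℂ => q.1.2) (e, v) := by fun_prop
      exact h5.prodMk (continuousAt_snd.mul ((h6.inv₀ hw).pow 3))
    have h7 : ∀ᶠ q : E1 × ℂ in 𝓝 (e, v), q.1.2 ≠ 0 := by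
      have h6 : ContinuousAt (fun q : E1 × ℂ => q.1.2) (e, v) := by fun_prop
      exact h6.eventually_ne hw
    filter_upwards [h4.eventually (near_false2 hx hy), h7] with q hq hq0 h8
    rw [etaC_true hq0]
    have h9 := hq (curve_flip hq0 h8)
    rw [hg, h9]
    rfl

/-! ### infinity -/

/-- the sheet sign at infinity -/
def sgv (v : ℂ) : ℝ := if 0 < v.re then 1 else -1

theorem exists_far_radius {b0 : Bs} (hb : b0 ∈ XX) : ∃ r > 0, ∀ (b : Bs) (w : ℂ), ‖b - b0‖ < r →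
    ‖w‖ < r → b ∈ XX ∧ 0 < (H604.Pinf b w).re ∧ (w ≠ 0 → (b, w⁻¹) ∈ H604.Far) := by
  have h1 : ∀ᶠ q : Bs × ℂ in 𝓝 (b0, 0), q.1 ∈ XX :=
    continuousAt_fst.eventually_mem (Vale.P273.H887.isOpen_XX.mem_nhds hb)
  have h2 : ∀ᶠ q : Bs × ℂ in 𝓝 (b0, 0), 0 < (H604.Pinf q.1 q.2).re := by
    have h3 : ContinuousAt (fun q : Bs × ℂ => (H604.Pinf q.1 q.2).re) (b0, 0) :=
      Complex.continuous_re.continuousAt.comp (H604.contDiffAt_Pinf (H604.mem_DI_zero b0)).continuousAt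
    refine h3.eventually (lt_mem_nhds ?_)
    simp
  have h4 : ∀ᶠ q : Bs × ℂ in 𝓝 (b0, 0), 2 * H604.Rr q.1 ^ 2 * ‖q.2‖ ^ 2 < 1 := by
    have h5 : Continuous (fun q : Bs × ℂ => 2 * H604.Rr q.1 ^ 2 * ‖q.2‖ ^ 2) := by
      have h6 : Continuous (fun q : Bs × ℂ => H604.Rr q.1) :=
        H604.contDiff_Rr.continuous.comp continuous_fst
      fun_prop
    refine h5.continuousAt.eventually (gt_mem_nhds ?_)
    simp
  obtain ⟨r, hr, h7⟩ := Metric.eventually_nhds_iff.1 (h1.and (h2.and h4))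
  refine ⟨r, hr, fun b w hb hw => ?_⟩
  have h8 := h7 (y := (b, w)) (by
    rw [Prod.dist_eq]
    refine max_lt (by rwa [dist_eq_norm]) ?_
    rwa [dist_eq_norm, sub_zero])
  refine ⟨h8.1, h8.2.1, fun hw0 => ?_⟩
  change 2 * H604.Rr b ^ 2 < ‖w⁻¹‖ ^ 2
  have h9 : 0 < ‖w‖ ^ 2 := by positivity
  rw [norm_inv, inv_pow, lt_inv_comm₀ (by have := H604.Rr_pos b; positivity) h9, ← one_div,
    lt_div_iff₀ (by have := H604.Rr_pos b; positivity)]
  linarith [h8.2.2]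

theorem etaC_far (hF : FlatOn O η A) {e : E1} {v : ℂ} (hb : e.1 ∈ O)
    (hP : 0 < (H604.Pinf e.1 e.2).re) (hfar : e.2 ≠ 0 → (e.1, e.2⁻¹) ∈ H604.Far)
    (hv : On1 true e v) : etaC η A true e v =
      sgv v • (H604.Cinf η A e.1).comp (ContinuousLinearMap.fst ℝ C6 ℂ) := by
  by_cases hw : e.2 = 0
  · rw [etaC_zero hw]
    rfl
  · have hf := hfar hw
    have h1 := curve_flip hw hv.1
    have h2 := H604.etaP_inf' hF (b := e.1) hb hf h1
    rw [etaC_true hw, h2, ContinuousLinearMap.smul_comp, ContinuousLinearMap.comp_assoc,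
      fst_fderiv_jj hw]
    congr 1
    have hDI : (e.1, e.2) ∈ H604.DI := by
      have := H604.Far.mem_DI hf
      simpa using this
    have h3 := H604.Pinf_sq hDI
    have h4 : v ^ 2 = H604.Pinf e.1 e.2 ^ 2 := by rw [hv.1, pol_true, h3]
    have hP0 := H604.Pinf_ne_zero e.1 e.2
    have hw3 : (e.2⁻¹ : ℂ) ^ 3 ≠ 0 := pow_ne_zero _ (inv_ne_zero hw)
    have h5 : v * (e.2⁻¹) ^ 3 / ((e.2⁻¹) ^ 3 * H604.Pinf e.1 (e.2⁻¹)⁻¹) = v / H604.Pinf e.1 e.2 := by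
      rw [inv_inv]
      field_simp
    rw [h5]
    have h6 : (v - H604.Pinf e.1 e.2) * (v + H604.Pinf e.1 e.2) = 0 := by linear_combination h4
    rcases mul_eq_zero.1 h6 with h7 | h7
    · have h8 : v = H604.Pinf e.1 e.2 := sub_eq_zero.1 h7
      rw [h8, div_self hP0, sgv, if_pos hP, Complex.one_re]
    · have h8 : v = -H604.Pinf e.1 e.2 := eq_neg_of_add_eq_zero_left h7
      rw [h8, neg_div, div_self hP0, sgv, if_neg (by rw [Complex.neg_re]; linarith),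
        Complex.neg_re, Complex.one_re]

theorem near_etaC_inf (hF : FlatOn XX η A) {e : E1} {v : ℂ} (hb : e.1 ∈ XX) (hw : e.2 = 0)
    (hv : On1 true e v) : Near1 true (etaC η A true) e v := by
  have hv2 : v ^ 2 = 1 := by
    rw [hv.1, pol_true, hw]
    simp
  have hv3 : v = 1 ∨ v = -1 := by
    have h1 : (v - 1) * (v + 1) = 0 := by linear_combination hv2
    rcases mul_eq_zero.1 h1 with h2 | h2
    · exact Or.inl (sub_eq_zero.1 h2)
    · exact Or.inr (eq_neg_of_add_eq_zero_left h2)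
  obtain ⟨r, hr, h⟩ := exists_far_radius hb
  have hg : ∀ᶠ p : E1 in 𝓝 e, ‖p.1 - e.1‖ < r ∧ ‖p.2‖ < r := by
    have h1 : ContinuousAt (fun p : E1 => ‖p.1 - e.1‖) e := by fun_prop
    have h2 : ContinuousAt (fun p : E1 => ‖p.2‖) e := by fun_prop
    exact (h1.eventually (gt_mem_nhds (by simpa using hr))).and
      (h2.eventually (gt_mem_nhds (by simpa [hw] using hr)))
  have hs : ∀ᶠ z in 𝓝 v, sgv z = sgv v := by
    rcases hv3 with h1 | h1
    · have : ∀ᶠ z : ℂ in 𝓝 v, 0 < z.re :=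
        Complex.continuous_re.continuousAt.eventually (lt_mem_nhds (by rw [h1]; simp))
      filter_upwards [this] with z hz
      rw [sgv, sgv, if_pos hz, if_pos (by rw [h1]; simp)]
    · have : ∀ᶠ z : ℂ in 𝓝 v, z.re < 0 :=
        Complex.continuous_re.continuousAt.eventually (gt_mem_nhds (by rw [h1]; simp))
      filter_upwards [this] with z hz
      rw [sgv, sgv, if_neg (not_lt.2 hz.le), if_neg (by rw [h1]; simp)]
  refine near1_of (g := fun p => (sgv v • H604.Cinf η A p.1).comp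
    (ContinuousLinearMap.fst ℝ C6 ℂ)) ?_ ?_
  · filter_upwards [hg] with p hp
    have hpX := (h p.1 p.2 hp.1 hp.2).1
    have h0 : ContDiffAt ℝ ∞ (fun b => sgv v • H604.Cinf η A b) p.1 :=
      (H604.contDiffAt_Cinf hF hpX).const_smul (sgv v)
    have h1 : ContDiffAt ℝ ∞ (fun p : E1 => sgv v • H604.Cinf η A p.1) p :=
      ContDiffAt.comp (g := fun b => sgv v • H604.Cinf η A b) (f := Prod.fst) p h0 contDiffAt_fst
    refine ⟨h1.clm_comp contDiffAt_const, fun u w => ?_⟩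
    have h2 := symm_pull (ι := (Prod.fst : E1 → C6)) (g := fun b => sgv v • H604.Cinf η A b)
      (p := p) contDiffAt_fst (h0.differentiableAt (by simp)) (fun a c => by
        have h3 : HasFDerivAt (fun b => sgv v • H604.Cinf η A b)
            (sgv v • fderiv ℝ (H604.Cinf η A) p.1) p.1 :=
          ((H604.contDiffAt_Cinf hF hpX).differentiableAt
            (by simp)).hasFDerivAt.const_smul (sgv v)
        rw [h3.fderiv]
        simp only [smul_apply]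
        rw [H604.closed_Cinf hF hpX]) u w
    simpa only [fderiv_fst] using h2
  · have h5 : ∀ᶠ q : E1 × ℂ in 𝓝 (e, v), ‖q.1.1 - e.1‖ < r ∧ ‖q.1.2‖ < r :=
      (continuousAt_fst (p := (e, v)) : Tendsto (Prod.fst : E1 × ℂ → E1) (𝓝 (e, v)) (𝓝 e)).eventually
        hg
    have h6 : ∀ᶠ q : E1 × ℂ in 𝓝 (e, v), sgv q.2 = sgv v :=
      (continuousAt_snd (p := (e, v)) : Tendsto (Prod.snd : E1 × ℂ → ℂ) (𝓝 (e, v)) (𝓝 v)).eventually
        hs
    have h7 : ∀ᶠ q : E1 × ℂ in 𝓝 (e, v), q.2 ≠ 0 := continuousAt_snd.eventually_ne hv.2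
    filter_upwards [h5, h6, h7] with q hq hq2 hq3 hq4
    obtain ⟨h8, h9, h10⟩ := h q.1.1 q.1.2 hq.1 hq.2
    rw [etaC_far hF h8 h9 h10 ⟨hq4, hq3⟩, hq2, ContinuousLinearMap.smul_comp]

theorem near_etaC (hF : FlatOn XX η A) (s : Bool) {e : E1} {v : ℂ} (hb : e.1 ∈ XX)
    (hv : On1 s e v) : Near1 s (etaC η A s) e v := by
  cases s
  · exact near_etaC_false hF hb hv
  · by_cases hw : e.2 = 0
    · exact near_etaC_inf hF hb hw hv
    · exact near_etaC_true hF hb hw hv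

theorem etaC_chg {e : E1} {v : ℂ} (hw : e.2 ≠ 0) :
    etaC η A false e v = (etaC η A true (e.1, e.2⁻¹) (v * (e.2⁻¹) ^ 3)).comp (fderiv ℝ jj e) := by
  rw [etaC_true (e := (e.1, e.2⁻¹)) (inv_ne_zero hw), etaC_false, ContinuousLinearMap.comp_assoc]
  have h1 := fderiv_jj_jj hw
  change (fderiv ℝ jj (e.1, e.2⁻¹)).comp (fderiv ℝ jj e) = _ at h1
  rw [h1, ContinuousLinearMap.comp_id]
  have h2 : v * (e.2⁻¹) ^ 3 * e.2 ^ 3 = v := by
    field_simp
  simp only [inv_inv, h2]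

end near

/-! ### linearity and the law at infinity -/

section inf
variable {Φ}

theorem yst {b : Bs} : (H604.Yinf (b, H604.xst b)) ^ 2 = ff (b, H604.xst b) ∧
    H604.Yinf (b, H604.xst b) ≠ 0 :=
  ⟨(H604.isBr_Yinf (H604.xst_far b)).sq.self_of_nhds, (H604.isBr_Yinf (H604.xst_far b)).ne_zero⟩

theorem FlatFam.addC {ξ ζ : Fin 6 → ℝ} (h1 : IsCl ξ) (h2 : IsCl ζ) {b : Bs} (hb : b ∈ XX) :
    H604.Cinf (Φ.η (ξ + ζ)) (Φ.A (ξ + ζ)) b =
      H604.Cinf (Φ.η ξ) (Φ.A ξ) b + H604.Cinf (Φ.η ζ) (Φ.A ζ) b := by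
  unfold H604.Cinf
  rw [Φ.addP h1 h2 hb yst.1 yst.2, ContinuousLinearMap.add_comp]

theorem FlatFam.smulC (c : ℝ) {ξ : Fin 6 → ℝ} (h1 : IsCl ξ) {b : Bs} (hb : b ∈ XX) :
    H604.Cinf (Φ.η (c • ξ)) (Φ.A (c • ξ)) b = c • H604.Cinf (Φ.η ξ) (Φ.A ξ) b := by
  unfold H604.Cinf
  rw [Φ.smulP c h1 hb yst.1 yst.2, ContinuousLinearMap.smul_comp]

theorem FlatFam.constC {b : Bs} (hb : b ∈ XX) :
    H604.Cinf (Φ.η fun _ => 1) (Φ.A fun _ => 1) b = 0 := by
  unfold H604.Cinf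
  rw [Φ.constP hb yst.1 yst.2, ContinuousLinearMap.zero_comp]

theorem FlatFam.lawC {ξ : Fin 6 → ℝ} (i : Fin 5) (h1 : IsCl ξ) {b : Bs}
    (hb : b ∈ XX) (h : (b i.succ).re < (b i.castSucc).re) :
    H604.Cinf (Φ.η ξ) (Φ.A ξ) b =
      (H604.Cinf (Φ.η (act i ξ)) (Φ.A (act i ξ)) (swL i b)).comp (swL i) := by
  unfold H604.Cinf
  have hx : H604.xst (swL i b) = H604.xst b := by
    rw [swL_eq_comp, H604.xst, Rr_perm]
    rfl
  have hY : H604.Yinf (swL i b, H604.xst b) = H604.Yinf (b, H604.xst b) := by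
    rw [swL_eq_comp]
    unfold H604.Yinf
    simp only [Pinf_perm]
  rw [hx, hY, Φ.lawP i h1 (isCl_act h1 i) hb h yst.1 yst.2]
  ext u
  simp

end inf

/-- the change of charts commutes with the relabelling -/
theorem jj_law (i : Fin 5) {e : E1} (hw : e.2 ≠ 0) :
    ((swL i).prodMap (ContinuousLinearMap.id ℝ ℂ)).comp (fderiv ℝ jj e) =
      (fderiv ℝ jj (swL i e.1, e.2)).comp ((swL i).prodMap (ContinuousLinearMap.id ℝ ℂ)) := by
  set M : E1 →L[ℝ] E1 := (swL i).prodMap (ContinuousLinearMap.id ℝ ℂ) with hM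
  have h1 : DifferentiableAt ℝ jj e := (contDiffAt_jj hw).differentiableAt (by simp)
  have h2 : DifferentiableAt ℝ jj (M e) :=
    (contDiffAt_jj (e := M e) hw).differentiableAt (by simp)
  have h3 := (M.hasFDerivAt.comp e h1.hasFDerivAt).fderiv
  have h4 := (h2.hasFDerivAt.comp e M.hasFDerivAt).fderiv
  have h5 : M ∘ jj = jj ∘ M := rfl
  rw [h5, h4] at h3
  exact h3.symm

/-- **BULK-F4, final: the one mark gauge of 973 from the flat forms of all classes.** -/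
def oneOf (Φ : FlatFam) : One where
  η := fun ξ => etaC (Φ.η ξ) (Φ.A ξ)
  add := by
    intro ξ ζ s e v h1 h2 hb hv
    cases s
    · rw [etaC_false, etaC_false, etaC_false,
        Φ.addP h1 h2 hb (by rw [hv.1, pol_false]) hv.2]
    · by_cases hw : e.2 = 0
      · rw [etaC_zero hw, etaC_zero hw, etaC_zero hw, FlatFam.addC h1 h2 hb,
          ContinuousLinearMap.add_comp, smul_add]
      · rw [etaC_true hw, etaC_true hw, etaC_true hw, Φ.addP h1 h2 hb (curve_flip hw hv.1)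
          (mul_ne_zero hv.2 (pow_ne_zero _ (inv_ne_zero hw))), ContinuousLinearMap.add_comp]
  smul := by
    intro c ξ s e v h1 hb hv
    cases s
    · rw [etaC_false, etaC_false, Φ.smulP c h1 hb (by rw [hv.1, pol_false]) hv.2]
    · by_cases hw : e.2 = 0
      · rw [etaC_zero hw, etaC_zero hw, FlatFam.smulC c h1 hb, ContinuousLinearMap.smul_comp,
          smul_comm]
      · rw [etaC_true hw, etaC_true hw, Φ.smulP c h1 hb (curve_flip hw hv.1)
          (mul_ne_zero hv.2 (pow_ne_zero _ (inv_ne_zero hw))), ContinuousLinearMap.smul_comp]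
  const := by
    intro s e v hb hv
    cases s
    · rw [etaC_false, Φ.constP hb (by rw [hv.1, pol_false]) hv.2]
    · by_cases hw : e.2 = 0
      · rw [etaC_zero hw, FlatFam.constC hb, ContinuousLinearMap.zero_comp, smul_zero]
      · rw [etaC_true hw, Φ.constP hb (curve_flip hw hv.1)
          (mul_ne_zero hv.2 (pow_ne_zero _ (inv_ne_zero hw))), ContinuousLinearMap.zero_comp]
  reg := fun ξ s e v h1 hb hv => near_etaC (Φ.flat ξ h1) s hb hv
  root := by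
    intro b hb k
    obtain ⟨r, hr, h⟩ := exists_root_radius Vale.P273.H887.isOpen_XX
      (fun _ h => sub_XX h) hb k
    refine ⟨r, hr, fun ξ e v h1 h2 h3 hv => ?_⟩
    obtain ⟨h4, h5⟩ := h e.1 e.2 h2 h3
    have hv1 : v ^ 2 = ff (e.1, e.2) := by rw [hv.1, pol_false]
    have hx : e.2 ≠ e.1 k := by
      have : ff (e.1, e.2) ≠ 0 := by rw [← hv1]; exact pow_ne_zero 2 hv.2
      exact ff_ne_zero_iff.1 this k
    rw [etaC_false]
    exact etaP_eq_zero (Φ.flat ξ h1) h4 h5 hx hv1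
  far := by
    intro b hb
    obtain ⟨r, hr, h⟩ := exists_far_radius hb
    refine ⟨r, hr, fun ξ b' => H604.Cinf (Φ.η ξ) (Φ.A ξ) b', fun ξ e v h1 h2 h3 hv => ?_⟩
    obtain ⟨h4, h5, h6⟩ := h e.1 e.2 h2 h3
    exact etaC_far (Φ.flat ξ h1) h4 h5 h6 hv
  chg := fun ξ e v _ _ hw _ => etaC_chg hw
  law := by
    intro ξ s e v i h1 hb h hv
    cases s
    · rw [etaC_false, etaC_false,
        Φ.lawP i h1 (isCl_act h1 i) hb h (by rw [hv.1, pol_false]) hv.2]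
    · by_cases hw : e.2 = 0
      · rw [etaC_zero hw, etaC_zero (e := (swL i e.1, e.2)) hw, FlatFam.lawC i h1 hb h]
        generalize (if 0 < v.re then (1 : ℝ) else -1) = c
        refine ContinuousLinearMap.ext fun u => ?_
        simp
      · rw [etaC_true hw, etaC_true (e := (swL i e.1, e.2)) hw,
          Φ.lawP i h1 (isCl_act h1 i) hb h (curve_flip hw hv.1)
          (mul_ne_zero hv.2 (pow_ne_zero _ (inv_ne_zero hw))), ContinuousLinearMap.comp_assoc,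
          jj_law i hw, ContinuousLinearMap.comp_assoc]

end

end Vale.Agent.P273.H214
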