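import Vale.Agent.P273.H214.OneZ
import Vale.Agent.P273.H580.The
import Vale.Agent.P273.H778.T2Defs
import Vale.Agent.P273.H787.Zone1

/-!
# P273: the uniform zero discs of the one mark gauge `theOne`
-/

namespace Vale.Agent.P273.H214

open scoped ContDiff Topology
open Set Filter
open H681 (C6 XX swL)
open H95 (rts pol act IsCl)
open H973 (E1 On1 Near1 One)

noncomputable section

theorem on1_of_pt {b : C6} {x y : ℂ} (h : H578.Pt b (x, y)) : On1 false (b, x) y := by
  refine ⟨?_, h.2⟩
  rw [pol_false]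
  exact h.1

/-- the uniform discs, for the gauge of every flat family -/
theorem disc0_oneOf (Φ : FlatFam) : H778.Disc0 (oneOf Φ) := by
  intro b hb ξ hξ x y hp h w
  have hv : On1 false (b, x) y := on1_of_pt hp
  have hv1 : y ^ 2 = ff (b, x) := by rw [hv.1, pol_false]
  rcases h with ⟨j, hj⟩ | hR
  · change (oneOf Φ).η ξ false (b, x) y (0, w) = 0
    rw [oneOf_root Φ ξ b x y j hξ hb hv hj]
    rfl
  · change (oneOf Φ).η ξ false (b, x) y (0, w) = 0
    rw [oneOf_false]
    have hf : (b, x) ∈ H604.Far := hR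
    rw [H604.etaP_inf' (Φ.flat ξ hξ) hb hf hv1]
    simp

/-- **the uniform discs of `theOne`** -/
theorem disc0 : H778.Disc0 H580.theOne := disc0_oneOf _

/-- `oneOf Φ` is the cut-off form of the flat family (787) -/
theorem isCutOf_oneOf (Φ : FlatFam) : H787.IsCutOf (oneOf Φ) Φ.η Φ.A :=
  ⟨Φ.flat, fun ξ b x v _ _ _ => oneOf_false Φ ξ (b, x) v⟩

/-- **`theOne` is the cut-off form of `etaX theStms`, `AX`** (787) -/
theorem isCutOf_theOne : H787.IsCutOf H580.theOne (H580.etaX H580.theStms) H580.AX :=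
  isCutOf_oneOf _

end

end Vale.Agent.P273.H214
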