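import Vale.Agent.P273.H214.GaugeDef

/-!
# P273, row BULK-F4: the cut-off gauge: smooth, closed, odd, zero near the roots
-/

namespace Vale.Agent.P273.H214

open scoped ContDiff Topology
open Set Filter MeasureTheory Finset
open H604 (EIc chiI Rr)

noncomputable section

variable {H : Type*} [NormedAddCommGroup H] [NormedSpace ℝ H]

/-! ### smoothness of the pieces -/

theorem contDiffAt_EWv {j : Fin 6} {p : Bs × ℂ} (hp : p ∈ Dj j) {Y : Bs × ℂ → ℂ}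
    (hY : ContDiffAt ℝ ∞ Y p) (hY0 : Y p ≠ 0) :
    ContDiffAt ℝ ∞ (fun q : Bs × ℂ => EWv q.1 j q.2 (Y q)) p := by
  have h1 : ∀ k, ContDiffAt ℝ ∞ (fun q : Bs × ℂ => EWc k q.1 j q.2 (Y q)) p := by
    intro k
    unfold EWc
    simp only [div_eq_mul_inv]
    refine ContDiffAt.mul (ContDiffAt.mul ?_ (hY.inv hY0)) ?_
    · fun_prop
    · exact (contDiffOn_Qj k j).contDiffAt ((isOpen_Dj j).mem_nhds hp)
  exact (h1 0).prodMk (h1 1)

theorem contDiffAt_EIv {p : Bs × ℂ} (hx : p.2 ≠ 0) (hp : (p.1, p.2⁻¹) ∈ H604.DI)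
    {Y : Bs × ℂ → ℂ} (hY : ContDiffAt ℝ ∞ Y p) (hY0 : Y p ≠ 0) :
    ContDiffAt ℝ ∞ (fun q : Bs × ℂ => EIv q.1 q.2 (Y q)) p := by
  have h1 : ∀ k, ContDiffAt ℝ ∞ (fun q : Bs × ℂ => EIc k q.1 q.2 (Y q)) p := by
    intro k
    have h2 := (H604.contDiffAt_EIc k hx hp hY0).restrict_scalars ℝ
    exact ContDiffAt.comp (g := fun q : (Bs × ℂ) × ℂ => EIc k q.1.1 q.1.2 q.2)
      (f := fun q : Bs × ℂ => ((q.1, q.2), Y q)) p h2 (by fun_prop)
  exact (h1 0).prodMk (h1 1)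

theorem contDiffAt_A {A : Bs → (ℂ × ℂ →L[ℝ] H)} {p : Bs × ℂ} (hA : ContDiffAt ℝ ∞ A p.1) :
    ContDiffAt ℝ ∞ (fun q : Bs × ℂ => A q.1) p :=
  ContDiffAt.comp (g := A) (f := Prod.fst) p hA contDiffAt_fst

/-- near a point outside of the disc the cut-off vanishes -/
theorem chiW_eventually_zero {j : Fin 6} {p : Bs × ℂ} (hb : p.1 ∈ Cf)
    (h : hh p.1 j < 32 * ‖p.2 - p.1 j‖ ^ 2) : ∀ᶠ q in 𝓝 p, chiW q.1 j q.2 = 0 := by
  have h1 : ContinuousAt (fun q : Bs × ℂ => hh q.1 j) p :=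
    ContinuousAt.comp (f := Prod.fst) (contDiffAt_hh hb j).continuousAt continuousAt_fst
  have h2 : ContinuousAt (fun q : Bs × ℂ => 32 * ‖q.2 - q.1 j‖ ^ 2) p := by
    have : Continuous (fun q : Bs × ℂ => 32 * ‖q.2 - q.1 j‖ ^ 2) := by fun_prop
    exact this.continuousAt
  have h3 : ∀ᶠ q : Bs × ℂ in 𝓝 p, q.1 ∈ Cf :=
    continuousAt_fst.eventually_mem (isOpen_Cf.mem_nhds hb)
  filter_upwards [h1.eventually_lt h2 h, h3] with q h4 h5
  exact chiW_eq_zero h5 h4.le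

theorem chiI_eventually_zero {p : Bs × ℂ} (h : ‖p.2‖ < Rr p.1) :
    ∀ᶠ q in 𝓝 p, chiI q.1 q.2 = 0 := by
  have h1 : Continuous (fun q : Bs × ℂ => Rr q.1) := H604.contDiff_Rr.continuous.comp continuous_fst
  have h2 : Continuous (fun q : Bs × ℂ => ‖q.2‖) := by fun_prop
  filter_upwards [h2.continuousAt.eventually_lt h1.continuousAt h] with q hq
  exact H604.chiI_eq_zero hq.le

theorem contDiffAt_cutW {A : Bs → (ℂ × ℂ →L[ℝ] H)} (j : Fin 6) {p : Bs × ℂ} (hb : p.1 ∈ Cf)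
    (hA : ContDiffAt ℝ ∞ A p.1) {Y : Bs × ℂ → ℂ} (hY : IsBr Y p) :
    ContDiffAt ℝ ∞ (fun q : Bs × ℂ => chiW q.1 j q.2 • A q.1 (EWv q.1 j q.2 (Y q))) p := by
  by_cases h : 4 * ‖p.2 - p.1 j‖ ^ 2 < hh p.1 j
  · have hp : p ∈ Dj j := mem_Dj_of_hh hb h
    exact (contDiffAt_chiW hb j p.2).smul
      ((contDiffAt_A hA).clm_apply (contDiffAt_EWv hp hY.smooth hY.ne_zero))
  · have h1 : hh p.1 j < 32 * ‖p.2 - p.1 j‖ ^ 2 := by
      have h2 := hh_pos hb j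
      push Not at h
      linarith
    refine (contDiffAt_const (c := (0 : H))).congr_of_eventuallyEq ?_
    filter_upwards [chiW_eventually_zero hb h1] with q hq
    rw [hq, zero_smul]

theorem contDiffAt_cutI {A : Bs → (ℂ × ℂ →L[ℝ] H)} {p : Bs × ℂ}
    (hA : ContDiffAt ℝ ∞ A p.1) {Y : Bs × ℂ → ℂ} (hY : IsBr Y p) :
    ContDiffAt ℝ ∞ (fun q : Bs × ℂ => chiI q.1 q.2 • A q.1 (EIv q.1 q.2 (Y q))) p := by
  by_cases h : Rr p.1 ≤ ‖p.2‖
  · have hx : p.2 ≠ 0 := by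
      intro h0
      rw [h0, norm_zero] at h
      linarith [H604.Rr_pos p.1]
    exact (H604.contDiff_chiI.contDiffAt).smul ((contDiffAt_A hA).clm_apply
      (contDiffAt_EIv hx (H604.mem_DI_inv (H604.two_mul_norm_lt h)) hY.smooth hY.ne_zero))
  · refine (contDiffAt_const (c := (0 : H))).congr_of_eventuallyEq ?_
    filter_upwards [chiI_eventually_zero (not_le.1 h)] with q hq
    rw [hq, zero_smul]

theorem contDiffAt_Ecut {A : Bs → (ℂ × ℂ →L[ℝ] H)} {p : Bs × ℂ} (hb : p.1 ∈ Cf)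
    (hA : ContDiffAt ℝ ∞ A p.1) {Y : Bs × ℂ → ℂ} (hY : IsBr Y p) :
    ContDiffAt ℝ ∞ (fun q : Bs × ℂ => Ecut A q (Y q)) p := by
  unfold Ecut
  exact (ContDiffAt.sum fun j _ => contDiffAt_cutW j hb hA hY).add (contDiffAt_cutI hA hY)

/-! ### the differential of the cut-off part -/

/-- along a branch, `dcut` is the differential of `Ecut` -/
theorem dcut_eq {A : Bs → (ℂ × ℂ →L[ℝ] H)} {p : Bs × ℂ} {Y : Bs × ℂ → ℂ} (hY : IsBr Y p) :
    dcut A p.1 p.2 (Y p) = fderiv ℝ (fun q => Ecut A q (Y q)) p := by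
  unfold dcut
  refine Filter.EventuallyEq.fderiv_eq ?_
  filter_upwards [hY.eq_Ybr] with q hq
  rw [hq]

theorem dcut_eventuallyEq {A : Bs → (ℂ × ℂ →L[ℝ] H)} {p : Bs × ℂ} {Y : Bs × ℂ → ℂ}
    (hY : IsBr Y p) : (fun q : Bs × ℂ => dcut A q.1 q.2 (Y q)) =ᶠ[𝓝 p]
      fun q => fderiv ℝ (fun q => Ecut A q (Y q)) q := by
  filter_upwards [hY.eventually] with q hq
  exact dcut_eq hq

theorem contDiffAt_dcut {A : Bs → (ℂ × ℂ →L[ℝ] H)} {p : Bs × ℂ} (hb : p.1 ∈ Cf)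
    (hA : ContDiffAt ℝ ∞ A p.1) {Y : Bs × ℂ → ℂ} (hY : IsBr Y p) :
    ContDiffAt ℝ ∞ (fun q : Bs × ℂ => dcut A q.1 q.2 (Y q)) p :=
  ((contDiffAt_Ecut hb hA hY).fderiv_right (m := ∞) (by simp)).congr_of_eventuallyEq
    (dcut_eventuallyEq hY)

theorem fderiv_dcut_symm {A : Bs → (ℂ × ℂ →L[ℝ] H)} {p : Bs × ℂ} (hb : p.1 ∈ Cf)
    (hA : ContDiffAt ℝ ∞ A p.1) {Y : Bs × ℂ → ℂ} (hY : IsBr Y p) (v w : Bs × ℂ) :
    fderiv ℝ (fun q : Bs × ℂ => dcut A q.1 q.2 (Y q)) p v w =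
      fderiv ℝ (fun q : Bs × ℂ => dcut A q.1 q.2 (Y q)) p w v := by
  rw [(dcut_eventuallyEq hY).fderiv_eq]
  have h0 : minSmoothness ℝ 2 ≤ (∞ : WithTop ℕ∞) := by
    simp only [minSmoothness_of_isRCLikeNormedField]
    exact WithTop.coe_le_coe.2 (le_top (a := (2 : ℕ∞)))
  have h1 := (contDiffAt_Ecut hb hA hY).isSymmSndFDerivAt h0
  exact h1 v w

theorem Ecut_neg (A : Bs → (ℂ × ℂ →L[ℝ] H)) (p : Bs × ℂ) (y : ℂ) :
    Ecut A p (-y) = -Ecut A p y := by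
  unfold Ecut EWv EIv
  have h1 : ∀ j, (EWc 0 p.1 j p.2 (-y), EWc 1 p.1 j p.2 (-y)) =
      -(EWc 0 p.1 j p.2 y, EWc 1 p.1 j p.2 y) := fun j => by
    rw [EWc_neg, EWc_neg]; rfl
  have h2 : (EIc 0 p.1 p.2 (-y), EIc 1 p.1 p.2 (-y)) = -(EIc 0 p.1 p.2 y, EIc 1 p.1 p.2 y) := by
    rw [H604.EIc_neg, H604.EIc_neg]; rfl
  simp only [h1, h2, map_neg, smul_neg, Finset.sum_neg_distrib]
  abel

theorem dcut_neg (A : Bs → (ℂ × ℂ →L[ℝ] H)) (b : Bs) (x y : ℂ) :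
    dcut A b x (-y) = -dcut A b x y := by
  unfold dcut
  simp only [Ybr_neg, Ecut_neg]
  exact fderiv_neg

/-! ### (T1), (T2), (T3) -/

variable {η : Bs → ℂ → ℂ → (Bs × ℂ →L[ℝ] H)} {A : Bs → (ℂ × ℂ →L[ℝ] H)}

theorem etaP_neg (hη : ∀ b x y, η b x (-y) = -η b x y) (b : Bs) (x y : ℂ) :
    etaP η A b x (-y) = -etaP η A b x y := by
  unfold etaP
  rw [hη, dcut_neg]
  abel

theorem contDiffAt_etaP {p : Bs × ℂ} (hb : p.1 ∈ Cf) (hA : ContDiffAt ℝ ∞ A p.1)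
    {Y : Bs × ℂ → ℂ} (hY : IsBr Y p)
    (hη : ContDiffAt ℝ ∞ (fun q : Bs × ℂ => η q.1 q.2 (Y q)) p) :
    ContDiffAt ℝ ∞ (fun q : Bs × ℂ => etaP η A q.1 q.2 (Y q)) p := by
  unfold etaP
  exact hη.sub (contDiffAt_dcut hb hA hY)

theorem fderiv_etaP_symm {p : Bs × ℂ} (hb : p.1 ∈ Cf) (hA : ContDiffAt ℝ ∞ A p.1)
    {Y : Bs × ℂ → ℂ} (hY : IsBr Y p)
    (hη : ContDiffAt ℝ ∞ (fun q : Bs × ℂ => η q.1 q.2 (Y q)) p) {v w : Bs × ℂ}
    (hc : fderiv ℝ (fun q : Bs × ℂ => η q.1 q.2 (Y q)) p v w =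
      fderiv ℝ (fun q : Bs × ℂ => η q.1 q.2 (Y q)) p w v) :
    fderiv ℝ (fun q : Bs × ℂ => etaP η A q.1 q.2 (Y q)) p v w =
      fderiv ℝ (fun q : Bs × ℂ => etaP η A q.1 q.2 (Y q)) p w v := by
  have h1 : fderiv ℝ (fun q : Bs × ℂ => etaP η A q.1 q.2 (Y q)) p =
      fderiv ℝ (fun q : Bs × ℂ => η q.1 q.2 (Y q)) p -
        fderiv ℝ (fun q : Bs × ℂ => dcut A q.1 q.2 (Y q)) p :=
    fderiv_fun_sub (hη.differentiableAt (by simp))
      ((contDiffAt_dcut hb hA hY).differentiableAt (by simp))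
  rw [h1]
  simp only [sub_apply]
  rw [hc, fderiv_dcut_symm hb hA hY v w]

/-! ### (T4): zero near the roots -/

/-- `Ecut` near the root `b j` -/
theorem Ecut_near_root {j : Fin 6} {p : Bs × ℂ} (hb : p.1 ∈ Cf)
    (h : 64 * ‖p.2 - p.1 j‖ ^ 2 < hh p.1 j) (y : ℂ) :
    Ecut A p y = A p.1 (EWv p.1 j p.2 y) := by
  have h1 : chiW p.1 j p.2 = 1 := chiW_eq_one hb h.le
  have h2 : ∀ i, i ≠ j → chiW p.1 i p.2 = 0 := fun i hi =>
    chiW_disjoint hb hi (by rw [h1]; exact one_ne_zero)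
  have h3 : chiI p.1 p.2 = 0 := by
    refine H604.chiI_eq_zero ?_
    obtain ⟨i, hi⟩ : ∃ i : Fin 6, i ≠ j := ⟨j + 1, by fin_cases j <;> decide⟩
    have h4 := hh_le hb hi
    have h5 : 8 * ‖p.2 - p.1 j‖ ≤ ‖p.1 i - p.1 j‖ := by
      by_contra hc
      push Not at hc
      nlinarith [norm_nonneg (p.1 i - p.1 j), norm_nonneg (p.2 - p.1 j)]
    have h6 : ‖p.1 i - p.1 j‖ ≤ ‖p.1 i‖ + ‖p.1 j‖ := norm_sub_le _ _
    have h7 := H604.norm_le_Rr p.1 i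
    have h8 := H604.norm_le_Rr p.1 j
    have h9 : ‖p.2‖ ≤ ‖p.2 - p.1 j‖ + ‖p.1 j‖ := by
      simpa using norm_add_le (p.2 - p.1 j) (p.1 j)
    have h10 := H604.Rr_pos p.1
    linarith
  unfold Ecut
  rw [Finset.sum_eq_single j, h1, h3, one_smul, zero_smul, add_zero]
  · intro i _ hi
    rw [h2 i hi, zero_smul]
  · intro hj
    exact absurd (Finset.mem_univ j) hj

theorem hasFDerivAt_vert {b : Bs} {x : ℂ} {f : Bs × ℂ → H} (hf : DifferentiableAt ℝ f (b, x))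
    {g : ℂ → H} (hg : ∀ᶠ z in 𝓝 x, g z = f (b, z)) (ζ : ℂ) :
    fderiv ℝ f (b, x) (0, ζ) = fderiv ℝ g x ζ := by
  have h1 : HasFDerivAt (fun z : ℂ => f (b, z))
      ((fderiv ℝ f (b, x)).comp (ContinuousLinearMap.inr ℝ Bs ℂ)) x :=
    hf.hasFDerivAt.comp x (hasFDerivAt_prodMk_right b x)
  have h2 : HasFDerivAt g ((fderiv ℝ f (b, x)).comp (ContinuousLinearMap.inr ℝ Bs ℂ)) x :=
    h1.congr_of_eventuallyEq hg
  rw [h2.fderiv]
  simp

/-- the vertical derivative of `A (EWv)` along a branch -/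
theorem vert_EWv {j : Fin 6} {p : Bs × ℂ} (hp : p ∈ Dj j) (hx : p.2 ≠ p.1 j)
    (hA : ContDiffAt ℝ ∞ A p.1) {Y : Bs × ℂ → ℂ} (hY : IsBr Y p) (ζ : ℂ) :
    fderiv ℝ (fun q : Bs × ℂ => A q.1 (EWv q.1 j q.2 (Y q))) p (0, ζ) =
      A p.1 (ζ / Y p, p.2 * ζ / Y p) := by
  obtain ⟨b, x⟩ := p
  have hd : DifferentiableAt ℝ (fun q : Bs × ℂ => A q.1 (EWv q.1 j q.2 (Y q))) (b, x) :=
    ((contDiffAt_A hA).clm_apply (contDiffAt_EWv hp hY.smooth hY.ne_zero)).differentiableAt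
      (by simp)
  rw [hasFDerivAt_vert hd (g := fun z => A b (EWv b j z (Y (b, z))))
    (Eventually.of_forall fun _ => rfl)]
  have hcont : Continuous fun z : ℂ => ((b, z) : Bs × ℂ) := by fun_prop
  have hYd : DifferentiableAt ℂ (fun z : ℂ => Y (b, z)) x :=
    DifferentiableAt.comp (g := Y) (f := fun z : ℂ => ((b, z) : Bs × ℂ)) x
      (hY.smoothC.differentiableAt (by simp)) (by fun_prop)
  have hY2 : ∀ᶠ z in 𝓝 x, Y (b, z) ^ 2 = ∏ i, (z - b i) :=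
    hcont.continuousAt.eventually hY.sq
  have h1 : ∀ k, HasDerivAt (fun z => EWc k b j z (Y (b, z))) (x ^ k / Y (b, x)) x := fun k =>
    hasDerivAt_EWc k hp hx hYd hY2
  have h2 : HasFDerivAt (fun z : ℂ => EWv b j z (Y (b, z)))
      (((ContinuousLinearMap.toSpanSingleton ℂ (x ^ 0 / Y (b, x))).restrictScalars ℝ).prod
        ((ContinuousLinearMap.toSpanSingleton ℂ (x ^ 1 / Y (b, x))).restrictScalars ℝ)) x :=
    ((h1 0).hasFDerivAt.restrictScalars ℝ).prodMk ((h1 1).hasFDerivAt.restrictScalars ℝ)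
  have h3 := (A b).hasFDerivAt.comp x h2
  have h4 : fderiv ℝ (fun z => A b (EWv b j z (Y (b, z)))) x = _ := h3.fderiv
  rw [h4]
  simp only [ContinuousLinearMap.comp_apply, ContinuousLinearMap.prod_apply,
    ContinuousLinearMap.coe_restrictScalars', ContinuousLinearMap.toSpanSingleton_apply, smul_eq_mul]
  congr 1
  simp only [Prod.mk.injEq]
  constructor <;> ring

/-- `FlatForm` over an open set `O` of configurations -/
structure FlatOn (O : Set Bs) (η : Bs → ℂ → ℂ → (Bs × ℂ →L[ℝ] H)) (A : Bs → (ℂ × ℂ →L[ℝ] H)) :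
    Prop where
  isOpen : IsOpen O
  sub : O ⊆ Cf
  odd : ∀ b x y, η b x (-y) = -η b x y
  smooth : ∀ p : Bs × ℂ, p.1 ∈ O → ∀ Y, IsBr Y p →
    ContDiffAt ℝ ∞ (fun q : Bs × ℂ => η q.1 q.2 (Y q)) p
  closed : ∀ p : Bs × ℂ, p.1 ∈ O → ∀ Y, IsBr Y p → ∀ v w,
    fderiv ℝ (fun q : Bs × ℂ => η q.1 q.2 (Y q)) p v w =
      fderiv ℝ (fun q : Bs × ℂ => η q.1 q.2 (Y q)) p w v
  vert : ∀ b ∈ O, ∀ x y, y ^ 2 = ff (b, x) → y ≠ 0 → ∀ ζ : ℂ,
    η b x y (0, ζ) = A b (ζ / y, x * ζ / y)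
  smoothA : ∀ b ∈ O, ContDiffAt ℝ ∞ A b

theorem FlatForm.toFlatOn (h : FlatForm η A) : FlatOn Cf η A where
  isOpen := isOpen_Cf
  sub := subset_rfl
  odd := h.odd
  smooth := fun p hp => h.smooth p ⟨hp, Set.mem_univ _⟩
  closed := fun p hp => h.closed p ⟨hp, Set.mem_univ _⟩
  vert := h.vert
  smoothA := h.smoothA

variable {O : Set Bs}

/-- the open disc condition -/
theorem eventually_disc {j : Fin 6} {p : Bs × ℂ} (hb : p.1 ∈ Cf)
    (h : 64 * ‖p.2 - p.1 j‖ ^ 2 < hh p.1 j) (hx : p.2 ≠ p.1 j) :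
    ∀ᶠ q in 𝓝 p, q.1 ∈ Cf ∧ 64 * ‖q.2 - q.1 j‖ ^ 2 < hh q.1 j ∧ q.2 ≠ q.1 j := by
  have h1 : ContinuousAt (fun q : Bs × ℂ => hh q.1 j) p :=
    ContinuousAt.comp (f := Prod.fst) (contDiffAt_hh hb j).continuousAt continuousAt_fst
  have h2 : ContinuousAt (fun q : Bs × ℂ => 64 * ‖q.2 - q.1 j‖ ^ 2) p := by
    have : Continuous (fun q : Bs × ℂ => 64 * ‖q.2 - q.1 j‖ ^ 2) := by fun_prop
    exact this.continuousAt
  have h3 : ∀ᶠ q : Bs × ℂ in 𝓝 p, q.1 ∈ Cf :=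
    continuousAt_fst.eventually_mem (isOpen_Cf.mem_nhds hb)
  have h4 : ∀ᶠ q : Bs × ℂ in 𝓝 p, q.2 ≠ q.1 j := by
    have h5 : IsOpen {q : Bs × ℂ | q.2 ≠ q.1 j} := isOpen_ne_fun (by fun_prop) (by fun_prop)
    exact h5.eventually_mem hx
  filter_upwards [h2.eventually_lt h1 h, h3, h4] with q h5 h6 h7
  exact ⟨h6, h5, h7⟩

theorem dcut_near_root {j : Fin 6} {p : Bs × ℂ} (hb : p.1 ∈ Cf)
    (h : 64 * ‖p.2 - p.1 j‖ ^ 2 < hh p.1 j) (hx : p.2 ≠ p.1 j) {Y : Bs × ℂ → ℂ} (hY : IsBr Y p) :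
    dcut A p.1 p.2 (Y p) = fderiv ℝ (fun q : Bs × ℂ => A q.1 (EWv q.1 j q.2 (Y q))) p := by
  rw [dcut_eq hY]
  refine Filter.EventuallyEq.fderiv_eq ?_
  filter_upwards [eventually_disc hb h hx] with q hq
  exact Ecut_near_root hq.1 hq.2.1 _

/-- near a root, `etaP` has no vertical part -/
theorem etaP_vert_root (hF : FlatOn O η A) {j : Fin 6} {p : Bs × ℂ} (hb : p.1 ∈ O)
    (h : 64 * ‖p.2 - p.1 j‖ ^ 2 < hh p.1 j) (hx : p.2 ≠ p.1 j) {Y : Bs × ℂ → ℂ} (hY : IsBr Y p)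
    (ζ : ℂ) : etaP η A p.1 p.2 (Y p) (0, ζ) = 0 := by
  have hC := hF.sub hb
  have hp : p ∈ Dj j := mem_Dj_of_hh hC (by nlinarith [sq_nonneg ‖p.2 - p.1 j‖])
  unfold etaP
  rw [dcut_near_root hC h hx hY, sub_apply, vert_EWv hp hx (hF.smoothA _ hb) hY,
    hF.vert _ hb _ _ hY.sq.self_of_nhds hY.ne_zero, sub_self]

/-- **(T4)** near the roots the cut-off form vanishes -/
theorem etaP_eq_zero (hF : FlatOn O η A) {j : Fin 6} {b : Bs} {x y : ℂ} (hb : b ∈ O)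
    (h : 64 * ‖x - b j‖ ^ 2 < hh b j) (hx : x ≠ b j) (hy : y ^ 2 = ff (b, x)) :
    etaP η A b x y = 0 := by
  have hC := hF.sub hb
  have hD : ∀ z : ℂ, ‖z - b j‖ = ‖x - b j‖ → (b, z) ∈ Dj j := fun z hz =>
    mem_Dj_of_hh hC (by rw [hz]; nlinarith [sq_nonneg ‖x - b j‖])
  have hff : ∀ z : ℂ, (b, z) ∈ Dj j → ff (b, z) =
      (z - b j) * (Pj j (b, z) ^ 2 * ∏ i ∈ univ.erase j, (b j - b i)) := by
    intro z hz
    rw [Pj_sq hz]
    exact (Finset.mul_prod_erase univ (fun i => z - b i) (Finset.mem_univ j)).symm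
  have hc0 : ∏ i ∈ univ.erase j, (b j - b i) ≠ 0 :=
    Finset.prod_ne_zero_iff.2 fun i hi => ne_of_Dj (hD x rfl) (Finset.mem_erase.1 hi).1
  set γ : ℝ → ℂ := fun t => b j + (x - b j) * Complex.exp (2 * Real.pi * Complex.I * t) with hγdef
  set yy : ℝ → ℂ := fun t => y * Complex.exp (Real.pi * Complex.I * t) *
    (Pj j (b, γ t) / Pj j (b, x)) with hyydef
  have hexp : ∀ t : ℝ, ‖Complex.exp (2 * Real.pi * Complex.I * t)‖ = 1 := by
    intro t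
    rw [Complex.norm_exp]
    simp
  have hγn : ∀ t, ‖γ t - b j‖ = ‖x - b j‖ := by
    intro t
    simp only [hγdef, add_sub_cancel_left, norm_mul, hexp, mul_one]
  have hγD : ∀ t, (b, γ t) ∈ Dj j := fun t => hD _ (hγn t)
  have hγx : ∀ t, γ t ≠ b j := by
    intro t h0
    have := hγn t
    rw [h0, sub_self, norm_zero] at this
    exact hx (sub_eq_zero.1 (norm_eq_zero.1 this.symm))
  have hγh : ∀ t, 64 * ‖γ t - b j‖ ^ 2 < hh b j := fun t => by rw [hγn]; exact h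
  have hne : ∀ t, ff (b, γ t) ≠ 0 := by
    intro t
    rw [hff _ (hγD t)]
    exact mul_ne_zero (sub_ne_zero.2 (hγx t)) (mul_ne_zero (pow_ne_zero _ (Pj_ne_zero _ _)) hc0)
  have hsq : ∀ t, yy t ^ 2 = ff (b, γ t) := by
    intro t
    have h1 : γ t - b j = (x - b j) * Complex.exp (2 * Real.pi * Complex.I * t) := by
      simp only [hγdef, add_sub_cancel_left]
    have h2 : Complex.exp (Real.pi * Complex.I * t) ^ 2 =
        Complex.exp (2 * Real.pi * Complex.I * t) := by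
      rw [← Complex.exp_nat_mul]; congr 1; push_cast; ring
    have h3 := Pj_ne_zero j (b, x)
    rw [hff _ (hγD t), h1]
    simp only [hyydef, mul_pow, div_pow]
    rw [hy, hff _ (hD x rfl), h2]
    field_simp
  have hγc : Continuous γ := by fun_prop
  have hyc : Continuous yy := by
    refine Continuous.mul (by fun_prop) (Continuous.div_const ?_ _)
    rw [continuous_iff_continuousAt]
    intro t
    have h1 : ContinuousAt (Pj j) (b, γ t) := (contDiffAt_Pj (hγD t)).continuousAt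
    exact ContinuousAt.comp (f := fun t : ℝ => ((b, γ t) : Bs × ℂ)) h1 (by fun_prop)
  have hγd : ∀ t, DifferentiableAt ℝ γ t := by
    intro t
    have h1 : DifferentiableAt ℝ (fun t : ℝ => 2 * (Real.pi : ℂ) * Complex.I * (t : ℂ)) t :=
      (Complex.ofRealCLM.differentiableAt).const_mul _
    exact (h1.cexp.const_mul _).const_add _
  have key := const_along_path (β := etaP η A) (b := b) hγd hyc hsq hne
    (fun t Y hY => (contDiffAt_etaP hC (hF.smoothA _ hb) hY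
      (hF.smooth (b, γ t) hb Y hY)).differentiableAt (by simp))
    (fun t Y hY v w => fderiv_etaP_symm hC (hF.smoothA _ hb) hY (hF.smooth (b, γ t) hb Y hY)
      (hF.closed (b, γ t) hb Y hY v w))
    (fun t Y hY => by
      have h5 : ∀ᶠ q : Bs × ℂ in 𝓝 (b, γ t), q.1 ∈ O :=
        continuousAt_fst.eventually_mem (hF.isOpen.mem_nhds hb)
      filter_upwards [eventually_disc (p := (b, γ t)) hC (hγh t) (hγx t), hY.eventually, h5]
        with q hq hq2 hq3 ζ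
      exact etaP_vert_root hF hq3 hq.2.1 hq.2.2 hq2 ζ) 0 1
  have e0 : γ 0 = x := by simp [hγdef]
  have e1 : γ 1 = x := by
    simp only [hγdef, Complex.ofReal_one, mul_one, Complex.exp_two_pi_mul_I]
    ring
  have hP := Pj_ne_zero j (b, x)
  have y0 : yy 0 = y := by
    simp only [hyydef, e0, div_self hP]
    simp
  have y1 : yy 1 = -y := by
    simp only [hyydef, e1, div_self hP, Complex.ofReal_one, mul_one, Complex.exp_pi_mul_I]
    ring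
  rw [e0, e1, y0, y1, etaP_neg hF.odd] at key
  have h9 : (2 : ℝ) • etaP η A b x y = 0 := by
    rw [two_smul]
    nth_rewrite 1 [key]
    abel
  exact (smul_eq_zero.1 h9).resolve_left two_ne_zero

end

end Vale.Agent.P273.H214
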