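import Vale.Agent.P273.H214.Branch
import Vale.Agent.P273.H604.ICut

/-!
# P273, row BULK-F4: the cut-off gauge, definitions

`H` is any real normed space; `A b (dx / y, x dx / y)` is the vertical part of the flat form `η`.
`etaP η A` is the form `η` after the cut-offs at the roots and at infinity.
-/

namespace Vale.Agent.P273.H214

open scoped ContDiff Topology
open Set Filter MeasureTheory Finset
open H604 (EIc chiI Rr)

noncomputable section

variable {H : Type*} [NormedAddCommGroup H] [NormedSpace ℝ H]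

/-- the integrals of `dx / y`, `x dx / y` from the root `b j` -/
def EWv (b : Bs) (j : Fin 6) (x y : ℂ) : ℂ × ℂ := (EWc 0 b j x y, EWc 1 b j x y)

/-- the integrals of `dx / y`, `x dx / y` from infinity -/
def EIv (b : Bs) (x y : ℂ) : ℂ × ℂ := (EIc 0 b x y, EIc 1 b x y)

/-- the function which is cut off -/
def Ecut (A : Bs → (ℂ × ℂ →L[ℝ] H)) (p : Bs × ℂ) (y : ℂ) : H :=
  (∑ j, chiW p.1 j p.2 • A p.1 (EWv p.1 j p.2 y)) + chiI p.1 p.2 • A p.1 (EIv p.1 p.2 y)

/-- its differential at a point of the curve -/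
def dcut (A : Bs → (ℂ × ℂ →L[ℝ] H)) (b : Bs) (x y : ℂ) : Bs × ℂ →L[ℝ] H :=
  fderiv ℝ (fun p => Ecut A p (Ybr (b, x) y p)) (b, x)

/-- the form after the cut-offs -/
def etaP (η : Bs → ℂ → ℂ → (Bs × ℂ →L[ℝ] H)) (A : Bs → (ℂ × ℂ →L[ℝ] H)) (b : Bs) (x y : ℂ) :
    Bs × ℂ →L[ℝ] H := η b x y - dcut A b x y

end

end Vale.Agent.P273.H214
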