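import Vale.Agent.P273.H214.Gauge

/-!
# P273, row BULK-F4: uniform vanishing of the cut-off gauge near the roots
-/

namespace Vale.Agent.P273.H214

open scoped ContDiff Topology
open Set Filter MeasureTheory Finset

noncomputable section

variable {H : Type*} [NormedAddCommGroup H] [NormedSpace ℝ H]
variable {η : Bs → ℂ → ℂ → (Bs × ℂ →L[ℝ] H)} {A : Bs → (ℂ × ℂ →L[ℝ] H)} {O : Set Bs}

theorem etaP_y_zero (hη : ∀ b x y, η b x (-y) = -η b x y) (b : Bs) (x : ℂ) :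
    etaP η A b x 0 = 0 := by
  have h1 := etaP_neg (A := A) hη b x 0
  rw [neg_zero] at h1
  have h9 : (2 : ℝ) • etaP η A b x 0 = 0 := by
    rw [two_smul]
    nth_rewrite 1 [h1]
    abel
  exact (smul_eq_zero.1 h9).resolve_left two_ne_zero

/-- the discs at the roots are uniform near every configuration -/
theorem exists_root_radius {O : Set Bs} (hO : IsOpen O) (hOC : O ⊆ Cf) {b0 : Bs} (hb : b0 ∈ O)
    (j : Fin 6) : ∃ r > 0, ∀ (b : Bs) (x : ℂ), ‖b - b0‖ < r → ‖x - b0 j‖ < r →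
      b ∈ O ∧ 64 * ‖x - b j‖ ^ 2 < hh b j := by
  have hC := hOC hb
  have h1 : ContinuousAt (fun q : Bs × ℂ => hh q.1 j) (b0, b0 j) :=
    ContinuousAt.comp (g := fun b : Bs => hh b j) (f := Prod.fst) (x := (b0, b0 j))
      (contDiffAt_hh hC j).continuousAt continuousAt_fst
  have h2 : ContinuousAt (fun q : Bs × ℂ => 64 * ‖q.2 - q.1 j‖ ^ 2) (b0, b0 j) := by
    have : Continuous (fun q : Bs × ℂ => 64 * ‖q.2 - q.1 j‖ ^ 2) := by fun_prop
    exact this.continuousAt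
  have h3 : ∀ᶠ q : Bs × ℂ in 𝓝 (b0, b0 j), q.1 ∈ O :=
    continuousAt_fst.eventually_mem (hO.mem_nhds hb)
  have h4 : ∀ᶠ q : Bs × ℂ in 𝓝 (b0, b0 j), 64 * ‖q.2 - q.1 j‖ ^ 2 < hh q.1 j := by
    refine h2.eventually_lt h1 ?_
    simpa using hh_pos hC j
  obtain ⟨r, hr, hr2⟩ := Metric.eventually_nhds_iff.1 (h3.and h4)
  refine ⟨r, hr, fun b x hb hx => ?_⟩
  have := hr2 (y := (b, x)) (by
    rw [Prod.dist_eq]
    exact max_lt (by rwa [dist_eq_norm]) (by rwa [dist_eq_norm]))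
  exact this

/-- **(T4')** the cut-off form vanishes near the roots, uniformly -/
theorem etaP_root (hF : FlatOn O η A) {b0 : Bs} (hb : b0 ∈ O) (j : Fin 6) :
    ∃ r > 0, ∀ (b : Bs) (x y : ℂ), ‖b - b0‖ < r → ‖x - b0 j‖ < r → y ^ 2 = ff (b, x) →
      etaP η A b x y = 0 := by
  obtain ⟨r, hr, h⟩ := exists_root_radius hF.isOpen hF.sub hb j
  refine ⟨r, hr, fun b x y h1 h2 h3 => ?_⟩
  obtain ⟨h4, h5⟩ := h b x h1 h2
  by_cases hx : x = b j
  · have hy : y = 0 := by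
      have : ff (b, x) = 0 := Finset.prod_eq_zero (Finset.mem_univ j) (by simp [hx])
      rw [this] at h3
      exact pow_eq_zero_iff (two_ne_zero) |>.1 h3
    rw [hy]
    exact etaP_y_zero hF.odd b x
  · exact etaP_eq_zero hF h4 h5 hx h3

/-- permutation of the roots: the cut-off functions -/
theorem ff_perm (b : Bs) (x : ℂ) (w : Equiv.Perm (Fin 6)) : ff (b ∘ w, x) = ff (b, x) := by
  unfold ff
  exact Equiv.prod_comp w fun i => x - b i

theorem Pj_perm (b : Bs) (j : Fin 6) (x : ℂ) (w : Equiv.Perm (Fin 6)) :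
    Pj j (b ∘ w, x) = Pj (w j) (b, x) := by
  unfold Pj
  refine Finset.prod_equiv w (fun i => ?_) fun i _ => rfl
  simp

theorem Qj_perm (k : ℕ) (b : Bs) (j : Fin 6) (x : ℂ) (w : Equiv.Perm (Fin 6)) :
    Qj k j (b ∘ w, x) = Qj k (w j) (b, x) := by
  unfold Qj intg seg
  simp only [Pj_perm, Function.comp]

theorem EWv_perm (b : Bs) (j : Fin 6) (x y : ℂ) (w : Equiv.Perm (Fin 6)) :
    EWv (b ∘ w) j x y = EWv b (w j) x y := by
  unfold EWv EWc
  simp only [Qj_perm, Function.comp]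

theorem hh_perm (b : Bs) (j : Fin 6) (w : Equiv.Perm (Fin 6)) : hh (b ∘ w) j = hh b (w j) := by
  unfold hh
  have : ∑ i ∈ univ.erase j, (‖(b ∘ w) i - (b ∘ w) j‖ ^ 2)⁻¹ =
      ∑ i ∈ univ.erase (w j), (‖b i - b (w j)‖ ^ 2)⁻¹ := by
    refine Finset.sum_equiv w (fun i => ?_) fun i _ => rfl
    simp
  rw [this]

theorem Rr_perm (b : Bs) (w : Equiv.Perm (Fin 6)) : H604.Rr (b ∘ w) = H604.Rr b := by
  unfold H604.Rr
  congr 3
  exact Equiv.sum_comp w fun i => ‖b i‖ ^ 2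

theorem chiI_perm (b : Bs) (x : ℂ) (w : Equiv.Perm (Fin 6)) :
    H604.chiI (b ∘ w) x = H604.chiI b x := by
  unfold H604.chiI
  rw [Rr_perm]

theorem Pinf_perm (b : Bs) (z : ℂ) (w : Equiv.Perm (Fin 6)) :
    H604.Pinf (b ∘ w) z = H604.Pinf b z := by
  unfold H604.Pinf
  exact Equiv.prod_comp w fun i => psq (1 - z * b i)

theorem EIv_perm (b : Bs) (x y : ℂ) (w : Equiv.Perm (Fin 6)) :
    EIv (b ∘ w) x y = EIv b x y := by
  unfold EIv H604.EIc
  simp only [Pinf_perm]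

/-- **relabelling**: if `A' (b ∘ w) = A b` then `Ecut` is invariant -/
theorem Ecut_perm {A A' : Bs → (ℂ × ℂ →L[ℝ] H)} {b : Bs} {w : Equiv.Perm (Fin 6)}
    (hA : A' (b ∘ w) = A b) (x y : ℂ) : Ecut A' (b ∘ w, x) y = Ecut A (b, x) y := by
  unfold Ecut
  simp only [chiW_perm, EWv_perm, chiI_perm, EIv_perm, hA]
  congr 1
  exact Equiv.sum_comp w fun j => chiW b j x • A b (EWv b j x y)

/-- relabelling as a linear map on `(b, x)` -/
def relab (w : Equiv.Perm (Fin 6)) : Bs × ℂ →L[ℝ] Bs × ℂ :=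
  (LinearMap.toContinuousLinearMap
    ({ toFun := fun b => b ∘ w, map_add' := fun _ _ => rfl, map_smul' := fun _ _ => rfl } :
      Bs →ₗ[ℝ] Bs)).prodMap (ContinuousLinearMap.id ℝ ℂ)

@[simp] theorem relab_apply (w : Equiv.Perm (Fin 6)) (p : Bs × ℂ) :
    relab w p = (p.1 ∘ w, p.2) := rfl

theorem dcut_perm {A A' : Bs → (ℂ × ℂ →L[ℝ] H)} {b : Bs} {w : Equiv.Perm (Fin 6)}
    (hA : ∀ᶠ c in 𝓝 b, A' (c ∘ w) = A c) (hb : b ∈ Cf) (hA' : ContDiffAt ℝ ∞ A' (b ∘ w))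
    {x y : ℂ} (hx : ff (b, x) ≠ 0) (hy : y ^ 2 = ff (b, x)) :
    dcut A b x y = (dcut A' (b ∘ w) x y).comp (relab w) := by
  have hbw : b ∘ w ∈ Cf := Function.Injective.comp hb w.injective
  have hffw : ff (b ∘ w, x) ≠ 0 := by rwa [ff_perm]
  have hbr : IsBr (Ybr (b ∘ w, x) y) (b ∘ w, x) := isBr_Ybr hffw (by rw [ff_perm, hy])
  have h1 : DifferentiableAt ℝ (fun p => Ecut A' p (Ybr (b ∘ w, x) y p)) (b ∘ w, x) :=
    (contDiffAt_Ecut (p := (b ∘ w, x)) hbw hA' hbr).differentiableAt (by simp)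
  have h2 : HasFDerivAt (fun p => Ecut A' (relab w p) (Ybr (b ∘ w, x) y (relab w p)))
      ((dcut A' (b ∘ w) x y).comp (relab w)) (b, x) :=
    HasFDerivAt.comp (g := fun p => Ecut A' p (Ybr (b ∘ w, x) y p)) (b, x)
      (h1.hasFDerivAt) (relab w).hasFDerivAt
  refine (h2.congr_of_eventuallyEq ?_).fderiv
  have h3 : ∀ᶠ q : Bs × ℂ in 𝓝 (b, x), A' (q.1 ∘ w) = A q.1 :=
    (continuousAt_fst (p := (b, x)) : Tendsto (Prod.fst : Bs × ℂ → Bs) (𝓝 (b, x)) (𝓝 b)).eventually hA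
  filter_upwards [h3] with q hq
  have h4 : Ybr (b ∘ w, x) y (relab w q) = Ybr (b, x) y q := by
    unfold Ybr
    rw [relab_apply, ff_perm, ff_perm]
  rw [h4, relab_apply, Ecut_perm hq]

/-- **naturality of the cut-off form under relabelling** -/
theorem etaP_perm {η η' : Bs → ℂ → ℂ → (Bs × ℂ →L[ℝ] H)} {A A' : Bs → (ℂ × ℂ →L[ℝ] H)} {b : Bs}
    {w : Equiv.Perm (Fin 6)}
    (hA : ∀ᶠ c in 𝓝 b, A' (c ∘ w) = A c) (hb : b ∈ Cf) (hA' : ContDiffAt ℝ ∞ A' (b ∘ w))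
    {x y : ℂ} (hx : ff (b, x) ≠ 0) (hy : y ^ 2 = ff (b, x))
    (hη : η b x y = (η' (b ∘ w) x y).comp (relab w)) :
    etaP η A b x y = (etaP η' A' (b ∘ w) x y).comp (relab w) := by
  unfold etaP
  rw [dcut_perm hA hb hA' hx hy, hη, ContinuousLinearMap.sub_comp]

end

end Vale.Agent.P273.H214
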